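import Vale.Agent.P057.Defs

namespace Vale.Agent.P057

open Finset

lemma rk_set_bdd (k N : ℕ) :
    BddAbove {m : ℕ | ∃ S : Finset ℕ, S ⊆ Finset.Icc 1 N ∧ ¬ HasAP k (S : Set ℕ) ∧ S.card = m} := by
  refine ⟨N, ?_⟩
  rintro m ⟨S, hS, -, rfl⟩
  simpa using Finset.card_le_card hS

lemma not_hasAP_empty {k : ℕ} (hk : 0 < k) : ¬ HasAP k ((∅ : Finset ℕ) : Set ℕ) := by
  rintro ⟨a, d, -, h⟩
  simpa using h 0 hk

lemma rk_set_nonempty {k : ℕ} (hk : 0 < k) (N : ℕ) :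
    {m : ℕ | ∃ S : Finset ℕ, S ⊆ Finset.Icc 1 N ∧ ¬ HasAP k (S : Set ℕ) ∧ S.card = m}.Nonempty :=
  ⟨0, ∅, by simp, not_hasAP_empty hk, by simp⟩

lemma card_le_rk {k N : ℕ} {S : Finset ℕ} (hS : S ⊆ Finset.Icc 1 N)
    (hAP : ¬ HasAP k (S : Set ℕ)) : S.card ≤ rk k N :=
  le_csSup (rk_set_bdd k N) ⟨S, hS, hAP, rfl⟩

lemma exists_extremal {k : ℕ} (hk : 0 < k) (N : ℕ) :
    ∃ S : Finset ℕ, S ⊆ Finset.Icc 1 N ∧ ¬ HasAP k (S : Set ℕ) ∧ S.card = rk k N :=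
  Nat.sSup_mem (rk_set_nonempty hk N) (rk_set_bdd k N)

lemma HasAP.mono {k : ℕ} {A B : Set ℕ} (h : A ⊆ B) (hA : HasAP k A) : HasAP k B := by
  obtain ⟨a, d, hd, ha⟩ := hA
  exact ⟨a, d, hd, fun i hi => h (ha i hi)⟩

/-- Translation invariance: an AP-free finite set inside `(x, x+N]` has at most `r_k(N)`
elements. -/
lemma card_le_rk_of_translate {k N x : ℕ} {T : Finset ℕ}
    (hT : ∀ t ∈ T, x < t ∧ t ≤ x + N) (hAP : ¬ HasAP k (T : Set ℕ)) : T.card ≤ rk k N := by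
  have hinj : Set.InjOn (fun t => t - x) (T : Set ℕ) := by
    intro s hs t ht hst
    have h1 := hT s hs
    have h2 := hT t ht
    simp only at hst
    omega
  rw [← Finset.card_image_of_injOn hinj]
  apply card_le_rk
  · intro y hy
    obtain ⟨t, ht, rfl⟩ := Finset.mem_image.1 hy
    have h1 := hT t ht
    simp only [Finset.mem_Icc]
    omega
  · rintro ⟨a, d, hd, h⟩
    apply hAP
    refine ⟨a + x, d, hd, fun i hi => ?_⟩
    have := h i hi
    simp only [Finset.coe_image, Set.mem_image, Finset.mem_coe] at this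
    obtain ⟨t, ht, hta⟩ := this
    have h1 := hT t ht
    have : a + x + i * d = t := by omega
    rw [this]
    exact ht

end Vale.Agent.P057
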