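import Mathlib

namespace Vale.Agent.P057

/-- `A` contains a `k`-term arithmetic progression `a, a+d, ..., a+(k-1)d` with `d > 0`. -/
def HasAP (k : ℕ) (A : Set ℕ) : Prop := ∃ a d : ℕ, 0 < d ∧ ∀ i < k, a + i * d ∈ A

/-- `r_k(N)`: the largest cardinality of a subset of `{1, ..., N}` containing no
`k`-term arithmetic progression. -/
noncomputable def rk (k N : ℕ) : ℕ :=
  sSup {m : ℕ | ∃ S : Finset ℕ, S ⊆ Finset.Icc 1 N ∧ ¬ HasAP k (S : Set ℕ) ∧ S.card = m}

/-- Erdos's conjecture for progressions of length `k`: every set of positive integers whose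
sum of reciprocals diverges contains a `k`-term arithmetic progression. -/
def ErdosAP (k : ℕ) : Prop :=
  ∀ A : Set ℕ, (∀ a ∈ A, 0 < a) → ¬ Summable (fun a : A => (1 : ℝ) / ((a : ℕ) : ℝ)) → HasAP k A

end Vale.Agent.P057
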