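import Vale.Agent.P057.Basic

namespace Vale.Agent.P057

open Finset

/-- The harmonic sum of a finite AP-free set of positive integers is bounded by a finite
dyadic sum of `r_k(2^n)/2^n`. -/
lemma sum_inv_le_dyadic {k : ℕ} (T : Finset ℕ) (hpos : ∀ t ∈ T, 0 < t)
    (hAP : ¬ HasAP k (T : Set ℕ)) :
    ∃ M : ℕ, ∑ t ∈ T, (1 : ℝ) / (t : ℝ) ≤ ∑ n ∈ range M, (rk k (2 ^ n) : ℝ) / 2 ^ n := by
  refine ⟨T.sup (fun t => Nat.log 2 t) + 1, ?_⟩
  have hmaps : ∀ t ∈ T, Nat.log 2 t ∈ range (T.sup (fun t => Nat.log 2 t) + 1) := by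
    intro t ht
    rw [Finset.mem_range, Nat.lt_succ_iff]
    exact Finset.le_sup (f := fun t => Nat.log 2 t) ht
  rw [← Finset.sum_fiberwise_of_maps_to hmaps]
  apply Finset.sum_le_sum
  intro n _
  have hcard : (T.filter (fun t => Nat.log 2 t = n)).card ≤ rk k (2 ^ n) := by
    apply card_le_rk_of_translate (x := 2 ^ n - 1)
    · intro t ht
      rw [Finset.mem_filter] at ht
      have ht0 : t ≠ 0 := (hpos t ht.1).ne'
      have h1 : 2 ^ n ≤ t := by
        rw [← ht.2]; exact Nat.pow_log_le_self 2 ht0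
      have h2 : t < 2 ^ (n + 1) := by
        rw [← ht.2]; exact Nat.lt_pow_succ_log_self (by norm_num) t
      have h3 : 0 < 2 ^ n := by positivity
      rw [pow_succ] at h2
      omega
    · intro h
      apply hAP
      refine HasAP.mono ?_ h
      intro t ht
      exact (Finset.mem_filter.1 ht).1
  calc ∑ t ∈ T.filter (fun t => Nat.log 2 t = n), (1 : ℝ) / (t : ℝ)
      ≤ ∑ _t ∈ T.filter (fun t => Nat.log 2 t = n), (1 : ℝ) / 2 ^ n := by
        apply Finset.sum_le_sum
        intro t ht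
        rw [Finset.mem_filter] at ht
        have ht0 : t ≠ 0 := (hpos t ht.1).ne'
        have h1 : 2 ^ n ≤ t := by
          rw [← ht.2]; exact Nat.pow_log_le_self 2 ht0
        have h1' : (2 : ℝ) ^ n ≤ (t : ℝ) := by exact_mod_cast h1
        exact one_div_le_one_div_of_le (by positivity) h1'
    _ = ((T.filter (fun t => Nat.log 2 t = n)).card : ℝ) / 2 ^ n := by
        rw [Finset.sum_const, nsmul_eq_mul, mul_one_div]
    _ ≤ (rk k (2 ^ n) : ℝ) / 2 ^ n := by
        apply div_le_div_of_nonneg_right _ (by positivity)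
        exact_mod_cast hcard

/-- If the dyadic series converges, the harmonic sum of every AP-free set of positive integers
is bounded by its sum. -/
lemma sum_inv_le_tsum {k : ℕ} (hs : Summable (fun n : ℕ => (rk k (2 ^ n) : ℝ) / 2 ^ n))
    (T : Finset ℕ) (hpos : ∀ t ∈ T, 0 < t) (hAP : ¬ HasAP k (T : Set ℕ)) :
    ∑ t ∈ T, (1 : ℝ) / (t : ℝ) ≤ ∑' n : ℕ, (rk k (2 ^ n) : ℝ) / 2 ^ n := by
  obtain ⟨M, hM⟩ := sum_inv_le_dyadic T hpos hAP
  exact hM.trans (hs.sum_le_tsum _ (fun n _ => by positivity))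

lemma summable_of_bounded {A : Set ℕ} {C : ℝ}
    (h : ∀ T : Finset ℕ, (T : Set ℕ) ⊆ A → ∑ t ∈ T, (1 : ℝ) / (t : ℝ) ≤ C) :
    Summable (fun a : A => (1 : ℝ) / ((a : ℕ) : ℝ)) := by
  apply summable_of_sum_le (c := C)
  · intro a; positivity
  · intro u
    have := h (u.map (Function.Embedding.subtype _)) (by
      intro t ht
      simp only [Finset.coe_map, Function.Embedding.subtype_apply, Set.mem_image,
        Finset.mem_coe] at ht
      obtain ⟨a, _, rfl⟩ := ht
      exact a.2)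
    simpa [Finset.sum_map] using this

theorem erdosAP_of_summable {k : ℕ}
    (hs : Summable (fun n : ℕ => (rk k (2 ^ n) : ℝ) / 2 ^ n)) : ErdosAP k := by
  intro A hpos hdiv
  by_contra hAP
  apply hdiv
  apply summable_of_bounded (C := ∑' n : ℕ, (rk k (2 ^ n) : ℝ) / 2 ^ n)
  intro T hT
  exact sum_inv_le_tsum hs T (fun t ht => hpos t (hT ht)) (fun h => hAP (h.mono hT))

end Vale.Agent.P057
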