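import Vale.Agent.P057.Lower
import Vale.Agent.P057.Upper

namespace Vale.Agent.P057

open Finset

/-- The `n`-th block of the glued set, as a finset. -/
noncomputable def block (F : ℕ → Finset ℕ) (c n : ℕ) : Finset ℕ :=
  (F (2 * n + c)).image (fun y => 2 ^ (2 * n + c + 1) + y)

lemma block_subset_glue (F : ℕ → Finset ℕ) (c n : ℕ) : (block F c n : Set ℕ) ⊆ glue F c := by
  intro x hx
  obtain ⟨y, hy, rfl⟩ := Finset.mem_image.1 (Finset.mem_coe.1 hx)
  exact ⟨n, y, hy, rfl⟩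

lemma block_inWin {F : ℕ → Finset ℕ} (hF : ∀ N, F N ⊆ Finset.Icc 1 (2 ^ N)) {c n x : ℕ}
    (hx : x ∈ block F c n) : InWin c n x := by
  obtain ⟨y, hy, rfl⟩ := Finset.mem_image.1 hx
  exact glue_inWin hF hy

lemma block_card (F : ℕ → Finset ℕ) (c n : ℕ) : (block F c n).card = (F (2 * n + c)).card :=
  Finset.card_image_of_injective _ (fun a b h => by simpa using h)

lemma block_disjoint {F : ℕ → Finset ℕ} (hF : ∀ N, F N ⊆ Finset.Icc 1 (2 ^ N)) (c : ℕ)
    (s : Set ℕ) : s.PairwiseDisjoint (block F c) := by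
  intro n _ m _ hnm
  rw [Function.onFun, Finset.disjoint_left]
  intro x hx hy
  exact hnm (win_unique (block_inWin hF hx) (block_inWin hF hy))

lemma block_sum_ge {F : ℕ → Finset ℕ} (hF : ∀ N, F N ⊆ Finset.Icc 1 (2 ^ N)) (c n : ℕ) :
    ((F (2 * n + c)).card : ℝ) / 2 ^ (2 * n + c) / 3 ≤ ∑ x ∈ block F c n, (1 : ℝ) / (x : ℝ) := by
  calc ((F (2 * n + c)).card : ℝ) / 2 ^ (2 * n + c) / 3
      = ∑ _x ∈ block F c n, (1 : ℝ) / (3 * 2 ^ (2 * n + c)) := by
        rw [Finset.sum_const, nsmul_eq_mul, block_card]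
        field_simp
    _ ≤ ∑ x ∈ block F c n, (1 : ℝ) / (x : ℝ) := by
        apply Finset.sum_le_sum
        intro x hx
        obtain ⟨h1, h2⟩ := block_inWin hF hx
        have h3 : 2 ^ (2 * n + c + 1) = 2 * 2 ^ (2 * n + c) := by ring
        have h4 : x ≤ 3 * 2 ^ (2 * n + c) := by omega
        have h5 : 0 < x := by omega
        have h4' : (x : ℝ) ≤ 3 * 2 ^ (2 * n + c) := by exact_mod_cast h4
        have h5' : (0 : ℝ) < x := by exact_mod_cast h5
        exact one_div_le_one_div_of_le h5' h4'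

lemma glue_not_summable {F : ℕ → Finset ℕ} (hF : ∀ N, F N ⊆ Finset.Icc 1 (2 ^ N)) (c : ℕ)
    (hdiv : ¬ Summable (fun n : ℕ => ((F (2 * n + c)).card : ℝ) / 2 ^ (2 * n + c))) :
    ¬ Summable (fun a : glue F c => (1 : ℝ) / ((a : ℕ) : ℝ)) := by
  intro hs
  apply hdiv
  have hs' : Summable ((glue F c).indicator (fun a : ℕ => (1 : ℝ) / (a : ℝ))) :=
    summable_subtype_iff_indicator.1 hs
  have hnn : ∀ a, 0 ≤ (glue F c).indicator (fun a : ℕ => (1 : ℝ) / (a : ℝ)) a := by
    intro a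
    apply Set.indicator_nonneg
    intro x _
    positivity
  have hb : ∀ M, ∑ n ∈ range M, ((F (2 * n + c)).card : ℝ) / 2 ^ (2 * n + c) / 3 ≤
      ∑' a, (glue F c).indicator (fun a : ℕ => (1 : ℝ) / (a : ℝ)) a := by
    intro M
    calc ∑ n ∈ range M, ((F (2 * n + c)).card : ℝ) / 2 ^ (2 * n + c) / 3
        ≤ ∑ n ∈ range M, ∑ x ∈ block F c n, (1 : ℝ) / (x : ℝ) :=
          Finset.sum_le_sum (fun n _ => block_sum_ge hF c n)
      _ = ∑ x ∈ (range M).biUnion (block F c), (1 : ℝ) / (x : ℝ) :=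
          (Finset.sum_biUnion (block_disjoint hF c _)).symm
      _ = ∑ x ∈ (range M).biUnion (block F c),
            (glue F c).indicator (fun a : ℕ => (1 : ℝ) / (a : ℝ)) x := by
          apply Finset.sum_congr rfl
          intro x hx
          obtain ⟨n, _, hxn⟩ := Finset.mem_biUnion.1 hx
          rw [Set.indicator_of_mem (block_subset_glue F c n hxn)]
      _ ≤ ∑' a, (glue F c).indicator (fun a : ℕ => (1 : ℝ) / (a : ℝ)) a :=
          hs'.sum_le_tsum _ (fun a _ => hnn a)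
  have h3 : Summable (fun n : ℕ => ((F (2 * n + c)).card : ℝ) / 2 ^ (2 * n + c) / 3) :=
    summable_of_sum_range_le (fun n => by positivity) hb
  have := h3.mul_left 3
  refine this.congr (fun n => ?_)
  field_simp

theorem summable_of_erdosAP {k : ℕ} (hk : 3 ≤ k) (h : ErdosAP k) :
    Summable (fun n : ℕ => (rk k (2 ^ n) : ℝ) / 2 ^ n) := by
  by_contra hns
  choose F hF hAP hcard using fun N : ℕ => exists_extremal (k := k) (by omega) (2 ^ N)
  have hc : ∃ c : ℕ, ¬ Summable (fun n : ℕ => ((F (2 * n + c)).card : ℝ) / 2 ^ (2 * n + c)) := by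
    by_contra hcon
    push Not at hcon
    apply hns
    have h0 := hcon 0
    have h1 := hcon 1
    simp only [hcard, add_zero] at h0 h1
    exact Summable.even_add_odd (f := fun n : ℕ => (rk k (2 ^ n) : ℝ) / 2 ^ n) h0 h1
  obtain ⟨c, hc⟩ := hc
  exact glue_not_hasAP hk hF hAP c (h (glue F c) glue_pos (glue_not_summable hF c hc))

/-- Erdos's conjecture for `k`-term progressions is equivalent to convergence of the dyadic
series of `r_k(2^n)/2^n`. -/
theorem erdosAP_iff_summable {k : ℕ} (hk : 3 ≤ k) :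
    ErdosAP k ↔ Summable (fun n : ℕ => (rk k (2 ^ n) : ℝ) / 2 ^ n) :=
  ⟨summable_of_erdosAP hk, erdosAP_of_summable⟩

end Vale.Agent.P057
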