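import Vale.Agent.P057.Diverge

namespace Vale.Agent.P057

open Finset Filter Topology

lemma rk_mono {k : ℕ} (hk : 0 < k) : Monotone (rk k) := by
  intro N M hNM
  obtain ⟨S, hS, hAP, hc⟩ := exists_extremal hk N
  rw [← hc]
  exact card_le_rk (hS.trans (Finset.Icc_subset_Icc_right hNM)) hAP

lemma rk_add_le {k : ℕ} (hk : 0 < k) (N M : ℕ) : rk k (N + M) ≤ rk k N + rk k M := by
  obtain ⟨S, hS, hAP, hc⟩ := exists_extremal hk (N + M)
  rw [← hc, ← Finset.card_filter_add_card_filter_not (s := S) (fun t => t ≤ N)]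
  apply add_le_add
  · apply card_le_rk
    · intro t ht
      rw [Finset.mem_filter] at ht
      have := Finset.mem_Icc.1 (hS ht.1)
      exact Finset.mem_Icc.2 ⟨this.1, ht.2⟩
    · intro h
      exact hAP (h.mono (by intro t ht; exact (Finset.mem_filter.1 ht).1))
  · apply card_le_rk_of_translate (x := N)
    · intro t ht
      rw [Finset.mem_filter] at ht
      have := Finset.mem_Icc.1 (hS ht.1)
      omega
    · intro h
      exact hAP (h.mono (by intro t ht; exact (Finset.mem_filter.1 ht).1))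

/-- the dyadic densities `a n = r_k(2^n)/2^n` -/
noncomputable def dy (k n : ℕ) : ℝ := (rk k (2 ^ n) : ℝ) / 2 ^ n

lemma dy_nonneg (k n : ℕ) : 0 ≤ dy k n := by unfold dy; positivity

lemma dy_antitone {k : ℕ} (hk : 0 < k) : Antitone (dy k) := by
  apply antitone_nat_of_succ_le
  intro n
  unfold dy
  have h : rk k (2 ^ (n + 1)) ≤ 2 * rk k (2 ^ n) := by
    have := rk_add_le hk (2 ^ n) (2 ^ n)
    have e : 2 ^ (n + 1) = 2 ^ n + 2 ^ n := by ring
    rw [e]; omega
  have h' : (rk k (2 ^ (n + 1)) : ℝ) ≤ 2 * rk k (2 ^ n) := by exact_mod_cast h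
  rw [div_le_div_iff₀ (by positivity) (by positivity)]
  calc (rk k (2 ^ (n + 1)) : ℝ) * 2 ^ n ≤ 2 * rk k (2 ^ n) * 2 ^ n := by gcongr
    _ = rk k (2 ^ n) * 2 ^ (n + 1) := by ring

/-- comparison of `r_k(N)/N` with the dyadic densities -/
lemma rk_div_le {k : ℕ} (hk : 0 < k) {N : ℕ} (hN : 0 < N) :
    (rk k N : ℝ) / N ≤ 2 * dy k (Nat.log 2 N) := by
  set n := Nat.log 2 N with hn
  have h1 : 2 ^ n ≤ N := Nat.pow_log_le_self 2 hN.ne'
  have h2 : N < 2 ^ (n + 1) := Nat.lt_pow_succ_log_self (by norm_num) N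
  have h3 : rk k N ≤ 2 * rk k (2 ^ n) := by
    have a := rk_mono hk h2.le
    have b := rk_add_le hk (2 ^ n) (2 ^ n)
    have e : 2 ^ (n + 1) = 2 ^ n + 2 ^ n := by ring
    rw [e] at a; omega
  have h3' : (rk k N : ℝ) ≤ 2 * rk k (2 ^ n) := by exact_mod_cast h3
  have h1' : (2 : ℝ) ^ n ≤ N := by exact_mod_cast h1
  have hN' : (0 : ℝ) < N := by exact_mod_cast hN
  unfold dy
  rw [div_le_iff₀ hN']
  calc (rk k N : ℝ) ≤ 2 * rk k (2 ^ n) := h3'
    _ = 2 * (rk k (2 ^ n) / 2 ^ n) * 2 ^ n := by field_simp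
    _ ≤ 2 * (rk k (2 ^ n) / 2 ^ n) * N := by gcongr

lemma le_rk_div {k : ℕ} (hk : 0 < k) {N : ℕ} (hN : 0 < N) :
    dy k (Nat.log 2 N) / 2 ≤ (rk k N : ℝ) / N := by
  set n := Nat.log 2 N with hn
  have h1 : 2 ^ n ≤ N := Nat.pow_log_le_self 2 hN.ne'
  have h2 : N < 2 ^ (n + 1) := Nat.lt_pow_succ_log_self (by norm_num) N
  have h3 : rk k (2 ^ n) ≤ rk k N := rk_mono hk h1
  have h3' : (rk k (2 ^ n) : ℝ) ≤ rk k N := by exact_mod_cast h3
  have h2' : (N : ℝ) ≤ 2 ^ (n + 1) := by exact_mod_cast h2.le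
  have hN' : (0 : ℝ) < N := by exact_mod_cast hN
  unfold dy
  rw [le_div_iff₀ hN']
  calc (rk k (2 ^ n) : ℝ) / 2 ^ n / 2 * N ≤ (rk k (2 ^ n) : ℝ) / 2 ^ n / 2 * 2 ^ (n + 1) := by gcongr
    _ = rk k (2 ^ n) := by field_simp; ring
    _ ≤ rk k N := h3'

/-- auxiliary antitone function for Cauchy condensation -/
noncomputable def hh (k N : ℕ) : ℝ := dy k (Nat.log 2 N) / N

lemma summable_hh_iff {k : ℕ} (hk : 0 < k) : Summable (hh k) ↔ Summable (dy k) := by
  rw [← summable_condensed_iff_of_nonneg (f := hh k)]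
  · apply summable_congr
    intro n
    unfold hh
    rw [Nat.log_pow (by norm_num)]
    push_cast
    field_simp
  · intro n
    unfold hh
    have := dy_nonneg k (Nat.log 2 n)
    positivity
  · intro m n hm hmn
    unfold hh
    have h1 : dy k (Nat.log 2 n) ≤ dy k (Nat.log 2 m) := dy_antitone hk (Nat.log_mono_right hmn)
    have hm' : (0 : ℝ) < m := by exact_mod_cast hm
    have hmn' : (m : ℝ) ≤ n := by exact_mod_cast hmn
    have := dy_nonneg k (Nat.log 2 n)
    have := dy_nonneg k (Nat.log 2 m)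
    gcongr

theorem summable_sq_iff {k : ℕ} (hk : 0 < k) :
    Summable (fun N : ℕ => (rk k N : ℝ) / (N : ℝ) ^ 2) ↔ Summable (dy k) := by
  rw [← summable_hh_iff hk]
  constructor
  · intro h
    have h2 := h.mul_left 2
    refine Summable.of_nonneg_of_le (fun N => ?_) (fun N => ?_) h2
    · unfold hh
      have := dy_nonneg k (Nat.log 2 N)
      positivity
    · rcases Nat.eq_zero_or_pos N with rfl | hN
      · simp [hh]
      · have hN' : (0 : ℝ) < N := by exact_mod_cast hN
        have := le_rk_div hk hN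
        unfold hh
        calc dy k (Nat.log 2 N) / N = 2 * (dy k (Nat.log 2 N) / 2) / N := by ring
          _ ≤ 2 * ((rk k N : ℝ) / N) / N := by gcongr
          _ = 2 * ((rk k N : ℝ) / (N : ℝ) ^ 2) := by field_simp
  · intro h
    have h2 := h.mul_left 2
    refine Summable.of_nonneg_of_le (fun N => by positivity) (fun N => ?_) h2
    rcases Nat.eq_zero_or_pos N with rfl | hN
    · simp [hh]
    · have hN' : (0 : ℝ) < N := by exact_mod_cast hN
      have := rk_div_le hk hN
      unfold hh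
      calc (rk k N : ℝ) / (N : ℝ) ^ 2 = ((rk k N : ℝ) / N) / N := by field_simp
        _ ≤ (2 * dy k (Nat.log 2 N)) / N := by gcongr
        _ = 2 * (dy k (Nat.log 2 N) / N) := by ring

/-- Olivier's theorem: a summable antitone nonnegative sequence satisfies `n * a n → 0`. -/
lemma tendsto_mul_of_antitone_summable {a : ℕ → ℝ} (ha0 : ∀ n, 0 ≤ a n) (ha : Antitone a)
    (hs : Summable a) : Tendsto (fun n : ℕ => (n : ℝ) * a n) atTop (𝓝 0) := by
  have ht : Tendsto (fun i => ∑' j, a (j + i)) atTop (𝓝 0) := tendsto_sum_nat_add a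
  have hz : Tendsto a atTop (𝓝 0) := hs.tendsto_atTop_zero
  have hhalf : Tendsto (fun n : ℕ => n / 2) atTop atTop :=
    Nat.tendsto_div_const_atTop (by norm_num)
  have ht2 : Tendsto (fun n : ℕ => 2 * (∑' j, a (j + n / 2)) + a n) atTop (𝓝 0) := by
    have := ((ht.comp hhalf).const_mul 2).add hz
    simpa using this
  refine squeeze_zero (fun n => mul_nonneg (Nat.cast_nonneg n) (ha0 n)) (fun n => ?_) ht2
  have hsum : ((n / 2 : ℕ) : ℝ) * a n ≤ ∑' j, a (j + n / 2) := by
    have hs' : Summable (fun j => a (j + n / 2)) := (summable_nat_add_iff (n / 2)).2 hs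
    calc ((n / 2 : ℕ) : ℝ) * a n = ∑ _j ∈ range (n / 2), a n := by
          rw [Finset.sum_const, Finset.card_range, nsmul_eq_mul]
      _ ≤ ∑ j ∈ range (n / 2), a (j + n / 2) := by
          apply Finset.sum_le_sum
          intro j hj
          apply ha
          have := Finset.mem_range.1 hj
          omega
      _ ≤ ∑' j, a (j + n / 2) := hs'.sum_le_tsum _ (fun j _ => ha0 _)
  have hn : (n : ℝ) ≤ 2 * ((n / 2 : ℕ) : ℝ) + 1 := by
    have : n ≤ 2 * (n / 2) + 1 := by omega
    exact_mod_cast this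
  calc (n : ℝ) * a n ≤ (2 * ((n / 2 : ℕ) : ℝ) + 1) * a n :=
        mul_le_mul_of_nonneg_right hn (ha0 n)
    _ = 2 * (((n / 2 : ℕ) : ℝ) * a n) + a n := by ring
    _ ≤ 2 * (∑' j, a (j + n / 2)) + a n := by gcongr

theorem tendsto_rk_log {k : ℕ} (hk : 0 < k) (hs : Summable (dy k)) :
    Tendsto (fun N : ℕ => (rk k N : ℝ) * Real.log N / N) atTop (𝓝 0) := by
  have h1 := tendsto_mul_of_antitone_summable (dy_nonneg k) (dy_antitone hk) hs
  have hz : Tendsto (dy k) atTop (𝓝 0) := hs.tendsto_atTop_zero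
  have hlog : Tendsto (fun N : ℕ => Nat.log 2 N) atTop atTop := by
    apply tendsto_atTop_atTop.2
    intro b
    refine ⟨2 ^ b, fun N hN => ?_⟩
    exact (Nat.le_log_iff_pow_le (by norm_num) (by
      have : 0 < 2 ^ b := by positivity
      omega)).2 hN
  have h2 : Tendsto (fun n : ℕ => 2 * ((n : ℝ) * dy k n) + 2 * dy k n) atTop (𝓝 0) := by
    have := (h1.const_mul 2).add (hz.const_mul 2)
    simpa using this
  have h3 := h2.comp hlog
  refine squeeze_zero' ?_ ?_ h3
  · filter_upwards [eventually_ge_atTop 1] with N hN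
    have : (1 : ℝ) ≤ N := by exact_mod_cast hN
    have := Real.log_nonneg this
    positivity
  · filter_upwards [eventually_ge_atTop 1] with N hN
    have hN0 : 0 < N := hN
    have hN' : (1 : ℝ) ≤ N := by exact_mod_cast hN
    have hl0 := Real.log_nonneg hN'
    have hb := rk_div_le hk hN0
    have hlogle : Real.log N ≤ (Nat.log 2 N : ℝ) + 1 := by
      have h2 : N < 2 ^ (Nat.log 2 N + 1) := Nat.lt_pow_succ_log_self (by norm_num) N
      have h2' : (N : ℝ) ≤ 2 ^ (Nat.log 2 N + 1) := by exact_mod_cast h2.le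
      calc Real.log N ≤ Real.log (2 ^ (Nat.log 2 N + 1)) :=
            Real.log_le_log (by linarith) h2'
        _ = ((Nat.log 2 N : ℝ) + 1) * Real.log 2 := by
            rw [Real.log_pow]; push_cast; ring
        _ ≤ ((Nat.log 2 N : ℝ) + 1) * 1 := by
            have : Real.log 2 ≤ 1 := by
              have := Real.log_two_lt_d9
              linarith
            gcongr
        _ = (Nat.log 2 N : ℝ) + 1 := by ring
    have hd := dy_nonneg k (Nat.log 2 N)
    simp only [Function.comp]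
    calc (rk k N : ℝ) * Real.log N / N = ((rk k N : ℝ) / N) * Real.log N := by ring
      _ ≤ (2 * dy k (Nat.log 2 N)) * ((Nat.log 2 N : ℝ) + 1) := by gcongr
      _ = 2 * ((Nat.log 2 N : ℝ) * dy k (Nat.log 2 N)) + 2 * dy k (Nat.log 2 N) := by ring

end Vale.Agent.P057
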