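import Vale.Agent.P057.Basic

namespace Vale.Agent.P057

open Finset

/-- The `n`-th window `(2^(N+1), 2^(N+1) + 2^N]` with `N = 2n + c`. -/
def InWin (c n x : ℕ) : Prop :=
  2 ^ (2 * n + c + 1) < x ∧ x ≤ 2 ^ (2 * n + c + 1) + 2 ^ (2 * n + c)

lemma win_order {c n m x y : ℕ} (hnm : n < m) (hx : InWin c n x) (hy : InWin c m y) :
    8 * x < 3 * y := by
  obtain ⟨_, hx2⟩ := hx
  obtain ⟨hy1, _⟩ := hy
  have h1 : 2 ^ (2 * n + c + 3) ≤ 2 ^ (2 * m + c + 1) :=
    Nat.pow_le_pow_right (by norm_num) (by omega)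
  have h2 : 2 ^ (2 * n + c + 3) = 8 * 2 ^ (2 * n + c) := by ring
  have h3 : 2 ^ (2 * n + c + 1) = 2 * 2 ^ (2 * n + c) := by ring
  omega

lemma win_unique {c n m x : ℕ} (hx : InWin c n x) (hy : InWin c m x) : n = m := by
  rcases lt_trichotomy n m with h | h | h
  · have := win_order h hx hy
    omega
  · exact h
  · have := win_order h hy hx
    omega

/-- Three consecutive terms of a progression lying in windows lie in the same window. -/
lemma win_triple {c n0 n1 n2 x d : ℕ} (hd : 0 < d) (h0 : InWin c n0 x) (h1 : InWin c n1 (x + d))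
    (h2 : InWin c n2 (x + 2 * d)) : n1 = n0 ∧ n2 = n0 := by
  have h12 : n1 = n2 := by
    rcases lt_trichotomy n1 n2 with h | h | h
    · have := win_order h h1 h2
      omega
    · exact h
    · have := win_order h h2 h1
      omega
  subst h12
  have h01 : n0 = n1 := by
    rcases lt_trichotomy n0 n1 with h | h | h
    · have := win_order h h0 h1
      obtain ⟨a1, a2⟩ := h1
      obtain ⟨b1, b2⟩ := h2
      have h3 : 2 ^ (2 * n1 + c + 1) = 2 * 2 ^ (2 * n1 + c) := by ring
      omega
    · exact h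
    · have := win_order h h1 h0
      omega
  exact ⟨h01.symm, h01.symm⟩

/-- The glued set built from finite sets `F N ⊆ [1, 2^N]`, using only `N = 2n + c`. -/
def glue (F : ℕ → Finset ℕ) (c : ℕ) : Set ℕ :=
  {x | ∃ n : ℕ, ∃ y ∈ F (2 * n + c), x = 2 ^ (2 * n + c + 1) + y}

lemma glue_inWin {F : ℕ → Finset ℕ} (hF : ∀ N, F N ⊆ Finset.Icc 1 (2 ^ N)) {c n y : ℕ}
    (hy : y ∈ F (2 * n + c)) : InWin c n (2 ^ (2 * n + c + 1) + y) := by
  have := Finset.mem_Icc.1 (hF _ hy)
  constructor <;> omega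

lemma glue_pos {F : ℕ → Finset ℕ} {c : ℕ} : ∀ a ∈ glue F c, 0 < a := by
  rintro a ⟨n, y, _, rfl⟩
  positivity

lemma glue_not_hasAP {k : ℕ} (hk : 3 ≤ k) {F : ℕ → Finset ℕ}
    (hF : ∀ N, F N ⊆ Finset.Icc 1 (2 ^ N)) (hAP : ∀ N, ¬ HasAP k (F N : Set ℕ)) (c : ℕ) :
    ¬ HasAP k (glue F c) := by
  rintro ⟨a, d, hd, h⟩
  obtain ⟨n, y0, hy0, ha0⟩ := h 0 (by omega)
  simp only [zero_mul, add_zero] at ha0
  -- every term lies in window n
  have key : ∀ i, i + 2 < k → InWin c n (a + i * d) →
      InWin c n (a + (i + 1) * d) ∧ InWin c n (a + (i + 2) * d) := by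
    intro i hi h0
    obtain ⟨n1, y1, hy1, e1⟩ := h (i + 1) (by omega)
    obtain ⟨n2, y2, hy2, e2⟩ := h (i + 2) (by omega)
    have w1 : InWin c n1 (a + i * d + d) := by
      have : a + i * d + d = a + (i + 1) * d := by ring
      rw [this, e1]; exact glue_inWin hF hy1
    have w2 : InWin c n2 (a + i * d + 2 * d) := by
      have : a + i * d + 2 * d = a + (i + 2) * d := by ring
      rw [this, e2]; exact glue_inWin hF hy2
    obtain ⟨r1, r2⟩ := win_triple hd h0 w1 w2
    subst r1
    subst r2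
    constructor
    · have : a + i * d + d = a + (i + 1) * d := by ring
      rw [← this]; exact w1
    · have : a + i * d + 2 * d = a + (i + 2) * d := by ring
      rw [← this]; exact w2
  have hw0 : InWin c n (a + 0 * d) := by
    simp only [zero_mul, add_zero]
    rw [ha0]; exact glue_inWin hF hy0
  have all2 : ∀ i, i + 1 < k → InWin c n (a + i * d) ∧ InWin c n (a + (i + 1) * d) := by
    intro i
    induction i with
    | zero =>
      intro _
      exact ⟨hw0, (key 0 (by omega) hw0).1⟩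
    | succ j ih =>
      intro hj
      have := ih (by omega)
      exact key j (by omega) this.1
  have all : ∀ i, i < k → InWin c n (a + i * d) := by
    intro i hi
    rcases Nat.eq_zero_or_pos i with rfl | hpos
    · exact hw0
    · obtain ⟨j, rfl⟩ : ∃ j, i = j + 1 := ⟨i - 1, by omega⟩
      exact (all2 j hi).2
  apply hAP (2 * n + c)
  refine ⟨y0, d, hd, fun i hi => ?_⟩
  obtain ⟨m, y, hy, e⟩ := h i hi
  have hm : n = m := win_unique (all i hi) (by rw [e]; exact glue_inWin hF hy)
  subst hm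
  have : y0 + i * d = y := by omega
  rw [this]
  exact hy

end Vale.Agent.P057
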