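import Vale.Agent.P057.Growth

namespace Vale.Agent.P057

open Finset Filter Topology

/-- Uniform (Gerver-type) form: all AP-free sets of positive integers have harmonic sums bounded
by one constant. -/
theorem erdosAP_iff_uniform {k : ℕ} (hk : 3 ≤ k) :
    ErdosAP k ↔ ∃ C : ℝ, ∀ A : Set ℕ, (∀ a ∈ A, 0 < a) → ¬ HasAP k A →
      Summable (fun a : A => (1 : ℝ) / ((a : ℕ) : ℝ)) ∧
        ∑' a : A, (1 : ℝ) / ((a : ℕ) : ℝ) ≤ C := by
  constructor
  · intro h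
    have hs := summable_of_erdosAP hk h
    refine ⟨∑' n : ℕ, (rk k (2 ^ n) : ℝ) / 2 ^ n, fun A hpos hAP => ?_⟩
    have hb : ∀ T : Finset ℕ, (T : Set ℕ) ⊆ A →
        ∑ t ∈ T, (1 : ℝ) / (t : ℝ) ≤ ∑' n : ℕ, (rk k (2 ^ n) : ℝ) / 2 ^ n := fun T hT =>
      sum_inv_le_tsum hs T (fun t ht => hpos t (hT ht)) (fun h => hAP (h.mono hT))
    have hsum := summable_of_bounded hb
    refine ⟨hsum, ?_⟩
    apply hsum.tsum_le_of_sum_le
    intro u
    have := hb (u.map (Function.Embedding.subtype _)) (by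
      intro t ht
      simp only [Finset.coe_map, Function.Embedding.subtype_apply, Set.mem_image,
        Finset.mem_coe] at ht
      obtain ⟨a, _, rfl⟩ := ht
      exact a.2)
    simpa [Finset.sum_map] using this
  · rintro ⟨C, hC⟩ A hpos hdiv
    by_contra hAP
    exact hdiv (hC A hpos hAP).1

theorem main {k : ℕ} (hk : 3 ≤ k) :
    (ErdosAP k ↔ Summable (fun N : ℕ => (rk k N : ℝ) / (N : ℝ) ^ 2)) ∧
    (ErdosAP k ↔ Summable (fun n : ℕ => (rk k (2 ^ n) : ℝ) / 2 ^ n)) ∧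
    (ErdosAP k ↔ ∃ C : ℝ, ∀ A : Set ℕ, (∀ a ∈ A, 0 < a) → ¬ HasAP k A →
      Summable (fun a : A => (1 : ℝ) / ((a : ℕ) : ℝ)) ∧
        ∑' a : A, (1 : ℝ) / ((a : ℕ) : ℝ) ≤ C) ∧
    (ErdosAP k → Tendsto (fun N : ℕ => (rk k N : ℝ) * Real.log N / N) atTop (𝓝 0)) := by
  have hk0 : 0 < k := by omega
  refine ⟨?_, erdosAP_iff_summable hk, erdosAP_iff_uniform hk, ?_⟩
  · rw [erdosAP_iff_summable hk, summable_sq_iff hk0]
    rfl
  · intro h
    exact tendsto_rk_log hk0 ((erdosAP_iff_summable hk).1 h)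

end Vale.Agent.P057
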